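import Crest.Agent.X212.Wz78.Sd

/-!
# Row 212, SW-ENW (helper40): two-forms on a cylinder
-/

set_option autoImplicit false
set_option linter.unusedSectionVars false
noncomputable section
open scoped Manifold ContDiff
open Finset

namespace Crest.Agent.X212.Enw40
open An Wz78

variable {E : Type} [NormedAddCommGroup E] [NormedSpace ℝ E] [FiniteDimensional ℝ E]
  [MeasurableSpace E] [BorelSpace E]
  {HM : Type} [TopologicalSpace HM] {I : ModelWithCorners ℝ E HM}
  {M : Type} [TopologicalSpace M] [ChartedSpace HM M] [IsManifold I ∞ M] [MeasurableSpace M]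
  {κ : Type} [Fintype κ] {lam : Type} [Fintype lam] {B : Base M (Option κ) lam} {x : M}
  {F S : Option κ × Option κ → ℝ}

theorem a2_anti (hF : ∀ s, ∑ t, B.a2 x s t * F t = F s) (a b : Option κ) :
    F (a, b) = -F (b, a) := by
  rw [← hF, ← hF (b, a), ← sum_neg_distrib]
  exact sum_congr rfl fun t _ => by rw [← neg_mul, ← a2_swap]; rfl

theorem sum_sq_anti (h : ∀ a b, F (a, b) = -F (b, a)) : ∑ s, F s ^ 2 =
    2 * ∑ k, F (none, some k) ^ 2 + ∑ j, ∑ k, F (some j, some k) ^ 2 := by
  have h0 : F (none, none) = 0 := by linarith [h none none]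
  simp only [Fintype.sum_prod_type, Fintype.sum_option, h0, fun k => h (some k) none,
    sum_add_distrib, neg_sq]
  ring

variable (hB : B.OK I) (h0 : B.P none none x = 1) (h1 : ∀ a, B.P none (some a) x = 0)
include hB

theorem o_nn (a b : Option κ) : B.o none a none b x = 0 := by
  linarith [hB.o23 none a none b x, hB.o12 none none a b x]

theorem st_row (F : Option κ × Option κ → ℝ) (k : Option κ) : ∑ t, B.st x (none, k) t * F t =
    ∑ i, ∑ j, B.st x (none, k) (some i, some j) * F (some i, some j) := by
  have o2 : ∀ l, B.o none k l none x = 0 := fun l => by rw [hB.o34, o_nn hB, neg_zero]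
  simp [Fintype.sum_prod_type, Fintype.sum_option, Base.st, o_nn hB, o2]

theorem sum_sq_st (hS : ∀ s, ∑ t, B.a2 x s t * S t = S s) :
    ∑ s, (∑ t, B.st x s t * S t) ^ 2 = ∑ s, S s ^ 2 := by
  have : ∀ s, (∑ t, B.st x s t * S t) ^ 2 = ∑ t, ∑ u, S t * (B.st x t s * B.st x s u * S u) :=
    fun s => by
      rw [sq, sum_mul_sum]
      exact sum_congr rfl fun t _ => sum_congr rfl fun u _ => by rw [st_symm hB x s t]; ring
  simp only [this]
  rw [sum_comm]
  refine sum_congr rfl fun t _ => ?_
  rw [sum_comm]
  simp only [← mul_sum, ← sum_mul, st_st hB, hS, sq]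

include h0 h1

theorem o_sp (a b c d : κ) : B.o (some a) (some b) (some c) (some d) x = 0 := by
  have : B.P none none x * B.o (some a) (some b) (some c) (some d) x =
      B.P none (some a) x * B.o none (some b) (some c) (some d) x +
      B.P none (some b) x * B.o (some a) none (some c) (some d) x +
      B.P none (some c) x * B.o (some a) (some b) none (some d) x +
      B.P none (some d) x * B.o (some a) (some b) (some c) none x := by
    obtain ⟨U, h⟩ := b_on hB x
    have h1 := h.vol
    have h2 := h.pr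
    simp only [h1, ← h2, Wz78.vol, Ind95.E4_eq, Fin.sum_univ_four]
    ring
  simpa [h0, h1] using this

/-- a two-form is bounded by its self-dual part and that of its spatial part -/
theorem split_le (hF : ∀ s, ∑ t, B.a2 x s t * F t = F s) (hS : ∀ s, ∑ t, B.a2 x s t * S t = S s)
    (e1 : ∀ j k, S (some j, some k) = F (some j, some k)) (e2 : ∀ a, S (none, a) = 0) :
    ∑ s, F s ^ 2 ≤ 16 * ∑ k, (∑ t, B.sd x (none, some k) t * F t) ^ 2 +
      24 * ∑ k, (∑ t, B.sd x (none, some k) t * S t) ^ 2 := by
  have e3 : ∀ a, S (a, none) = 0 := fun a => by rw [a2_anti hS, e2, neg_zero]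
  have p : ∀ (G : Option κ × Option κ → ℝ) s, ∑ t, B.sd x s t * G t =
      (∑ t, B.a2 x s t * G t + ∑ t, B.st x s t * G t) / 2 := fun G s => by
    simp only [Base.sd, div_mul_eq_mul_div, add_mul, ← sum_div, sum_add_distrib]
  have q : ∀ k, ∑ t, B.st x (none, k) t * F t = ∑ t, B.st x (none, k) t * S t := fun k => by
    simp only [st_row hB, e1]
  have r := sum_sq_st hB hS
  rw [sum_sq_anti (F := fun s => ∑ t, B.st x s t * S t) fun a b => by
    rw [← sum_neg_distrib]
    exact sum_congr rfl fun t _ => by rw [← neg_mul, ← st_swap hB]; rfl, sum_sq_anti (a2_anti hS)]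
    at r
  have z : ∀ j k, ∑ t, B.st x (some j, some k) t * S t = 0 := fun j k => by
    simp [Fintype.sum_prod_type, Fintype.sum_option, e2, e3, Base.st, o_sp hB h0 h1]
  simp only [z, e1, e2, zero_pow two_ne_zero, sum_const_zero, mul_zero, zero_add, add_zero] at r
  rw [sum_sq_anti (a2_anti hF), ← r]
  simp only [p, hF, hS, q, e2, mul_sum, ← sum_add_distrib]
  exact sum_le_sum fun k _ => by
    nlinarith [sq_nonneg (F (none, some k) + 2 * ∑ t, B.st x (none, some k) t * S t)]

end Crest.Agent.X212.Enw40
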