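import Crest.Agent.X212.Sw88.Cut
import Crest.Agent.X212.Sep15.SwB
import Crest.Agent.X212.Enw40.Alg

/-!
# Row 212, SW-ENW (helper40): the cut-off Weitzenboeck formula, the curvature on a cylinder
-/

set_option autoImplicit false
set_option linter.unusedSectionVars false
noncomputable section
open scoped Manifold ContDiff Topology InnerProductSpace
open MeasureTheory Set Filter

namespace Crest.Agent.X212.Enw40
open An Wz78 Sob92 Cyf70 Sw88 Sep15.S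
open Sw (Bg F2 En3)
open Sw.En3

variable {κ lam ν : Type} [Fintype κ] [Fintype lam] [Fintype ν] [DecidableEq ν]

theorem norm_F2 (η : F2 κ) : ‖η‖ ^ 2 = ∑ s, η s ^ 2 := by
  simp [PiLp.norm_sq_eq_of_L2]

theorem row_le (η : F2 κ) : ∑ k, η (none, some k) ^ 2 ≤ ‖η‖ ^ 2 := by
  rw [norm_F2, Fintype.sum_prod_type, Fintype.sum_option, Fintype.sum_option]
  have : 0 ≤ ∑ i : κ, ∑ j, η (some i, j) ^ 2 := by positivity
  linarith [sq_nonneg (η (none, none))]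

section gen
variable {E : Type} [NormedAddCommGroup E] [NormedSpace ℝ E] [FiniteDimensional ℝ E]
  [MeasurableSpace E] [BorelSpace E]
  {HM : Type} [TopologicalSpace HM] {I : ModelWithCorners ℝ E HM}
  {M : Type} [TopologicalSpace M] [ChartedSpace HM M] [IsManifold I ∞ M] [MeasurableSpace M]
  {nc : ℕ} {b : Bg I M κ lam ν nc} {c : Sw.Cfg M κ ν} {χ : M → ℝ} {x : M}

variable (b c χ x) in
/-- the cut-off spinorial energy density -/
def vv : ℝ := b.w * ∑ i, ‖nab I b.F.e (b.W c) i (fun y => χ y • c.Φ y) x‖ ^ 2 +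
  b.w ^ 2 / 8 * (χ x ^ 2 * ‖c.Φ x‖ ^ 4)

variable (b c χ x) in
/-- the other side of the Weitzenboeck formula -/
def gg : ℝ := b.w * (‖dir I b.F.e b.m.ρ (b.W c) (fun y => χ y • c.Φ y) x‖ ^ 2 -
  (sc b x / 4 * ‖χ x • c.Φ x‖ ^ 2 + 4 * ⟪b.fc c x, b.qd x (χ x • c.Φ x) (χ x • c.Φ x)⟫_ℝ)) +
  b.w ^ 2 / 8 * (χ x ^ 2 * ‖c.Φ x‖ ^ 4)

variable (hb : b.OK)
include hb

theorem vv_nonneg : 0 ≤ vv b c χ x := by
  have := hb.w
  unfold vv; positivity

theorem p2_fc (hv : b.pp x (c.Φ x) = c.Φ x) :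
    b.p2 x (b.fc c x) = b.eC c x + b.om x + b.w • b.qd x (c.Φ x) (c.Φ x) := by
  rw [Bg.eC, map_sub, map_smul, p2_qd_self hb hv]; abel

theorem norm_wqd (hv : b.pp x (c.Φ x) = c.Φ x) :
    ‖b.w • b.qd x (c.Φ x) (c.Φ x)‖ = b.w * ‖c.Φ x‖ ^ 2 / 4 := by
  rw [norm_smul, norm_qd hb hv, Real.norm_of_nonneg hb.w, mul_div_assoc]

variable (hc : b.Adm c)
include hc

theorem gg_le {K A S r β : ℝ} (hχ : SA I χ x) (h0 : 0 ≤ χ x) (h1 : χ x ≤ 1)
    (hr : ∀ v : Eu ν, ∑ i, b.F.D i χ x • b.m.ρ i x v = r • b.m.ρ none x v) (hA : r ^ 2 ≤ A * χ x)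
    (hD : b.eD c x = β • b.m.ρ none x (c.Φ x)) (hE : ‖b.eC c x‖ ≤ K) (ho : ‖b.om x‖ ≤ K)
    (hm : ‖b.ms x‖ ≤ K) (hS : |sc b x| ≤ S) :
    gg b c χ x ≤ 3 * (b.w * β ^ 2 * ‖c.Φ x‖ ^ 2) + 2 * (3 * A + 3 * K ^ 2 + S / 4 + 2 * K) ^ 2 := by
  have w0 := hb.w
  have K0 := (norm_nonneg _).trans hm
  have e : dir I b.F.e b.m.ρ (b.W c) (fun y => χ y • c.Φ y) x = r • b.m.ρ none x (c.Φ x) +
      χ x • (β • b.m.ρ none x (c.Φ x) - b.ms x (c.Φ x)) := by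
    rw [← hD, ← hr, Bg.eD, add_sub_cancel_right]
    simp only [dir, nab_smul _ hχ (hc.sΦ x), map_add, map_smul, Finset.sum_add_distrib,
      Finset.smul_sum]
    rfl
  set n := ‖c.Φ x‖ with hn
  have n0 : 0 ≤ n := norm_nonneg _
  have a0 : ‖b.m.ρ none x (c.Φ x)‖ ≤ n := (p8 hb x).norm_ρ none _
  have a1 : ‖dir I b.F.e b.m.ρ (b.W c) (fun y => χ y • c.Φ y) x‖ ≤
      |r| * n + χ x * (|β| * n) + χ x * (K * n) := by
    rw [e, add_assoc, ← mul_add]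
    refine (norm_add_le _ _).trans (add_le_add ?_ ?_)
    · rw [norm_smul]; exact mul_le_mul_of_nonneg_left a0 (abs_nonneg _)
    · rw [norm_smul, Real.norm_of_nonneg h0]
      refine mul_le_mul_of_nonneg_left ((norm_sub_le _ _).trans (add_le_add ?_
        (ContinuousLinearMap.le_of_opNorm_le _ hm _))) h0
      rw [norm_smul]; exact mul_le_mul_of_nonneg_left a0 (abs_nonneg _)
  have a2 : ‖dir I b.F.e b.m.ρ (b.W c) (fun y => χ y • c.Φ y) x‖ ^ 2 ≤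
      3 * (r ^ 2 * n ^ 2 + χ x ^ 2 * (β ^ 2 * n ^ 2) + χ x ^ 2 * (K ^ 2 * n ^ 2)) := by
    refine (pow_le_pow_left₀ (norm_nonneg _) a1 2).trans ?_
    rw [← sq_abs r, ← sq_abs β]
    nlinarith [sq_nonneg (|r| * n - χ x * (|β| * n)), sq_nonneg (|r| * n - χ x * (K * n)),
      sq_nonneg (χ x * (|β| * n) - χ x * (K * n))]
  have a3 := inner_fc_qd_ge hb (hc.pΦ x)
  have a4 : ‖b.eC c x + b.om x‖ ≤ 2 * K := (norm_add_le _ _).trans (by linarith)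
  have x2 : χ x ^ 2 ≤ χ x := by nlinarith
  have x1 : χ x ^ 2 ≤ 1 := x2.trans h1
  rw [gg, qd_smul, real_inner_smul_right, norm_smul, Real.norm_of_nonneg h0, mul_pow, ← sq, ← hn]
  rw [← hn, show n ^ 4 = (n ^ 2) ^ 2 by ring] at a3
  rw [show n ^ 4 = (n ^ 2) ^ 2 by ring]
  have m0 := sq_nonneg n
  generalize n ^ 2 = m at *
  have S0 := (abs_nonneg _).trans hS
  have b1 : r ^ 2 * m ≤ A * χ x * m := by gcongr
  have b2 : χ x ^ 2 * (β ^ 2 * m) ≤ 1 * (β ^ 2 * m) := by gcongr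
  have b3 : χ x ^ 2 * (K ^ 2 * m) ≤ χ x * (K ^ 2 * m) := by gcongr
  have b4 : -sc b x * (χ x ^ 2 * m) ≤ S * (χ x * m) :=
    mul_le_mul ((neg_le_abs _).trans hS) (by gcongr) (by positivity) S0
  have b5 : ‖b.eC c x + b.om x‖ * m * χ x ^ 2 ≤ 2 * K * m * χ x := by gcongr
  have b6 := mul_le_mul_of_nonneg_right a3 (sq_nonneg (χ x))
  have b7 : ‖dir I b.F.e b.m.ρ (b.W c) (fun y => χ y • c.Φ y) x‖ ^ 2 -
      (sc b x / 4 * (χ x ^ 2 * m) + 4 * (χ x ^ 2 * ⟪b.fc c x, b.qd x (c.Φ x) (c.Φ x)⟫_ℝ)) ≤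
      3 * (β ^ 2 * m) + (3 * A + 3 * K ^ 2 + S / 4 + 2 * K) * (χ x * m) -
        b.w / 4 * (χ x * m) ^ 2 := by linarith
  nlinarith [mul_le_mul_of_nonneg_left b7 w0,
    sq_nonneg (b.w * (χ x * m) - 4 * (3 * A + 3 * K ^ 2 + S / 4 + 2 * K))]

theorem gg_zero (hχ : SA I χ x) (h0 : χ x = 0) (hr : ∀ i, b.F.D i χ x = 0) : gg b c χ x = 0 := by
  have : ∀ i, dv I (b.F.e i) χ x = 0 := hr
  simp only [gg, qd_smul]
  simp [dir, nab_smul _ hχ (hc.sΦ x), h0, this]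

theorem fc_a2 (s : Option κ × Option κ) : ∑ t, b.B.a2 x s t * b.fc c x t = b.fc c x s := by
  have D := (cm hb hc).cc.toCon
  refine a2_fix (T := fun i j => b.fc c x (i, j)) (fun i j => ?_) (fun i j => ?_) s
  · simp only [Bg.fc, (lc_gam _).curv_anti D i j x, map_neg, inner_neg_right, mul_neg]
  · simp only [Bg.fc, ← (lc_gam _).curv_p1 (frm _) (sep _) D i j x, map_sum, map_smul, inner_sum,
      real_inner_smul_right, Finset.mul_sum, smul_eq_mul, ← hb.G.P]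
    exact Finset.sum_congr rfl fun _ _ => mul_left_comm _ _ _

variable [T2Space M] [BorelSpace M] [SecondCountableTopology M] [I.Boundaryless]

theorem int_cut (hχ : Sm I χ) (hk : HasCompactSupport χ) : Integrable (vv b c χ) b.F.μ ∧
    Integrable (gg b c χ) b.F.μ ∧ ∫ x, vv b c χ x ∂b.F.μ = ∫ x, gg b c χ x ∂b.F.μ := by
  have D := (cm hb hc).cc
  have sψ : Sm I fun y => χ y • c.Φ y := hχ.smul hc.sΦ
  have kψ : HasCompactSupport fun y => χ y • c.Φ y := hk.smul_right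
  have hp : ∀ x, b.m.p x (χ x • c.Φ x) = χ x • c.Φ x := fun x => by
    rw [map_smul, p_of hb (hc.pΦ x)]
  have sq : ∀ {u : M → Eu ν}, Sm I u → HasCompactSupport u →
      Integrable (fun x => ‖u x‖ ^ 2) b.F.μ := fun hu ku => by
    simpa only [real_inner_self_eq_norm_sq] using
      integ (F := b.F) (fun x => SA.inner (hu x) (hu x)) (hcs_inner _ ku)
  have i1 := (integrable_finsetSum Finset.univ fun i _ =>
    sq (sm_nab (F := b.F) D.sm i sψ) (hcs_nab i kψ)).const_mul b.w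
  have i2 := sq (fun x => D.dir_sm (frm _) (sψ x)) (hcs_dir kψ)
  have i3 : Integrable (fun x => sc b x / 4 * ‖χ x • c.Φ x‖ ^ 2 +
      4 * ⟪b.fc c x, b.qd x (χ x • c.Φ x) (χ x • c.Φ x)⟫_ℝ) b.F.μ := by
    simpa only [real_inner_self_eq_norm_sq, inner_wK hb hc (hp _)] using integ (F := b.F)
      (fun x => SA.inner (SA.app (sm_wK (F := b.F) D.sm D.sρ x) (sψ x)) (sψ x)) (hcs_inner _ kψ)
  have i4 : Integrable (fun x => b.w ^ 2 / 8 * (χ x ^ 2 * ‖c.Φ x‖ ^ 4)) b.F.μ :=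
    (((hχ.continuous.pow 2).mul (hc.sΦ.continuous.norm.pow 4)).integrable_of_hasCompactSupport
      (hk.mono fun x hx h => hx (by simp [h]))).const_mul _
  refine ⟨i1.add i4, ((i2.sub i3).const_mul _).add i4, ?_⟩
  unfold vv gg
  rw [integral_add i1 i4, integral_add ((i2.sub' i3).const_mul _) i4, integral_const_mul b.w,
    integral_const_mul b.w, integral_sub i2 i3, int_weitz hb hc sψ hp kψ, add_sub_cancel_right]

end gen

variable {e : En3 κ lam ν} {c : e.ZC} {v : e.YC}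

theorem curv_sl {V : Type} [NormedAddCommGroup V] [NormedSpace ℝ V]
    {C : Option κ → e.Y.M × ℝ → V →L[ℝ] V} (hC : ∀ a, Sm (IC e.Y.I) (C a)) (j k : κ) (y : e.Y.M)
    (t : ℝ) : curv (IC e.Y.I) e.cyl.F.e e.cyl.F.c C (some j) (some k) (y, t) =
      curv e.Y.I e.D.F.e e.D.F.c (fun k y => C (some k) (y, t)) j k y := by
  have := fun a b => D_some e.D.F.toPre (hC (some b)) a (y, t)
  simp only [curv, Fintype.sum_option]
  exact congrArg₂ (· - ·) (congrArg (· + _) (congrArg₂ (· - ·) (this j k) (this k j)))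
    ((congrArg (· + _) (zero_smul _ _)).trans (zero_add _))

theorem sd_t (y : e.Y.M) (t : ℝ) : e.cyl.B.sd (y, t) = e.cyl.B.sd (y, 0) ∧
    e.cyl.B.a2 (y, t) = e.cyl.B.a2 (y, 0) := by
  have : ∀ i j, e.cyl.B.P i j (y, t) = e.cyl.B.P i j (y, 0) := fun i j => by
    cases i <;> cases j <;> rfl
  have h : e.cyl.B.a2 (y, t) = e.cyl.B.a2 (y, 0) := by
    funext s u; simp only [Base.a2, this]
  exact ⟨by funext s u; simp only [Base.sd, h]; rfl, h⟩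

variable (he : e.OK)
include he

theorem fc_none (hv : e.cyl.Adm (fz v)) (x : e.Y.M × ℝ) (a : Option κ) :
    e.cyl.fc (fz v) x (none, a) = 0 := by
  have h0 : e.cyl.W (fz v) none = fun _ => 0 := funext fun _ => (zero_add _).trans (zero_smul _ _)
  have h1 : dv (IC e.Y.I) (e.cyl.F.e none) (e.cyl.W (fz v) a) x = 0 := by
    have := D_none e.D.F.toPre ((cm he.cyl hv).cc.sm a) x
    rwa [show (fun s => e.cyl.W (fz v) a (x.1, s)) = fun _ => e.cyl.W (fz v) a (x.1, 0) by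
      cases a <;> rfl, deriv_const] at this
  have h2 : ∀ k, e.cyl.F.c none a k x = 0 := fun _ => rfl
  simp [Bg.fc, curv, h0, h1, h2, dv_const]

theorem fc_le0 (hc : e.cyl.Adm c) {K : ℝ} (hN : ∀ r y, ‖deriv e.f r • e.ζ y‖ ≤ K ^ 2)
    (ho : ∀ x, ‖e.cyl.om x‖ ≤ K)
    (x : e.Y.M × ℝ) (hE : ‖e.cyl.eC c x‖ ≤ K) : ‖e.cyl.fc c x‖ ^ 2 ≤
      128 * K ^ 2 + 96 * (K ^ 2 + K) ^ 2 + 12 * ∑ k, (gr (sl c x.2)).a k x.1 ^ 2 +
        8 * (e.w ^ 2 * ‖c.Φ x‖ ^ 4) := by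
  obtain ⟨y, t⟩ := x
  have hv : e.cyl.Adm (fz (sl c t)) := adm_sl isOpen_univ ⟨fun i => (hc.sa i).contMDiffOn,
    hc.sΦ.contMDiffOn, fun i x _ => hc.pa i x, fun x _ => hc.pΦ x⟩ (mem_univ t)
  have h := split_le (x := (y, 0)) (F := e.cyl.fc c (y, t)) (S := e.cyl.fc (fz (sl c t)) (y, 0))
    he.cyl.B rfl (fun _ => rfl) (fun s => (sd_t y t).2 ▸ fc_a2 he.cyl hc s) (fc_a2 he.cyl hv)
    (fun j k => by
      simp only [Bg.fc, curv_sl (cm he.cyl hc).cc.sm, curv_sl (cm he.cyl hv).cc.sm]; rfl)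
    (fc_none he hv _)
  rw [← norm_F2] at h
  nth_rw 1 [← (sd_t y t).1] at h
  simp only [← p2_apply] at h
  have w0 := he.cyl.w
  have K0 := (norm_nonneg _).trans hE
  set q := e.w * ‖c.Φ (y, t)‖ ^ 2 / 4 with hq
  have a1 : ‖e.cyl.p2 (y, t) (e.cyl.fc c (y, t))‖ ≤ 2 * K + q := by
    rw [p2_fc he.cyl (hc.pΦ _)]
    refine norm_add₃_le.trans ?_
    rw [norm_wqd he.cyl (hc.pΦ _)]
    exact add_le_add_left (by linarith [ho (y, t)]) _
  set η := -(deriv e.f (hol (sl c t)) • e.ζ y) + e.cyl.om (y, 0) +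
    e.cyl.w • e.cyl.qd (y, 0) (c.Φ (y, t)) (c.Φ (y, t)) with hη
  have a2 : ‖η‖ ≤ K ^ 2 + K + q := by
    refine norm_add₃_le.trans (add_le_add (add_le_add ?_ (ho _)) (norm_wqd he.cyl (hv.pΦ _)).le)
    exact (norm_neg _).trans_le (hN _ _)
  have a3 : ∀ k, e.cyl.p2 (y, 0) (e.cyl.fc (fz (sl c t)) (y, 0)) (none, some k) ^ 2 ≤
      (gr (sl c t)).a k y ^ 2 / 2 + 2 * η (none, some k) ^ 2 := fun k => by
    have : e.cyl.p2 (y, 0) (e.cyl.fc (fz (sl c t)) (y, 0)) (none, some k) =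
        (gr (sl c t)).a k y / 2 + η (none, some k) := by
      rw [p2_fc he.cyl (hv.pΦ _), hη]
      simp only [gr, PiLp.add_apply, PiLp.neg_apply]
      change _ + _ + (e.cyl.w • e.cyl.qd (y, 0) (c.Φ (y, t)) (c.Φ (y, t))) _ = _
      ring
    rw [this]
    nlinarith [sq_nonneg ((gr (sl c t)).a k y / 2 - η (none, some k))]
  have a4 := Finset.sum_le_sum fun k (_ : k ∈ Finset.univ) => a3 k
  rw [Finset.sum_add_distrib, ← Finset.sum_div, ← Finset.mul_sum] at a4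
  have a5 := (row_le _).trans (pow_le_pow_left₀ (norm_nonneg _) a1 2)
  have a6 := (row_le _).trans (pow_le_pow_left₀ (norm_nonneg _) a2 2)
  rw [show e.w ^ 2 * ‖c.Φ (y, t)‖ ^ 4 = 16 * q ^ 2 by rw [hq]; ring]
  nlinarith [sq_nonneg (2 * K - q), sq_nonneg (K ^ 2 + K - q)]

theorem fc_le (hc : e.cyl.Adm c) {K : ℝ} (hN : e.Nb K) (ho : ∀ x, ‖e.cyl.om x‖ ≤ K)
    (x : e.Y.M × ℝ) (hE : ‖e.cyl.eC c x‖ ≤ K) : ‖e.cyl.fc c x‖ ^ 2 ≤
      128 * K ^ 2 + 96 * (K ^ 2 + K) ^ 2 + 12 * ∑ k, (gr (sl c x.2)).a k x.1 ^ 2 +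
        8 * (e.w ^ 2 * ‖c.Φ x‖ ^ 4) :=
  fc_le0 he hc (fun r y => by
    rw [norm_smul, sq]
    exact mul_le_mul (hN.f _).2 (hN.ζ y) (norm_nonneg _) ((norm_nonneg _).trans hE)) ho x hE

end Crest.Agent.X212.Enw40
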