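import Crest.Agent.X212.Enw40.Pw

/-!
# Row 212, SW-ENW (helper40): the energy density on windows
-/

set_option autoImplicit false
set_option linter.unusedSectionVars false
noncomputable section
open scoped Manifold ContDiff Topology InnerProductSpace
open MeasureTheory Set Filter Metric

namespace Crest.Agent.X212.Enw40
open An Wz78 Sob92 Cyf70 Sw88 Sep15.S
open Sw (Bg F2 En3)
open Sw.En3

variable {κ lam ν : Type} [Fintype κ] [Fintype lam] [Fintype ν] [DecidableEq ν]

/-- cut-off functions of windows -/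
structure Bump (A s : ℝ) (χ : ℝ → ℝ) : Prop where
  sm : ContDiff ℝ ∞ χ
  h0 : ∀ t, 0 ≤ χ t
  h1 : ∀ t, χ t ≤ 1
  der : ∀ t, deriv χ t ^ 2 ≤ A * χ t
  sup : ∀ t, χ t ≠ 0 → t ∈ ball s (3 / 4)
  one : ∀ t ∈ Ioo (s - 1 / 2) (s + 1 / 2), ∀ᶠ r in 𝓝 t, χ r = 1

theorem exists_bump : ∃ A, ∀ s, ∃ χ, Bump A s χ := by
  let f : ContDiffBump (0 : ℝ) := ⟨1 / 2, 3 / 4, by norm_num, by norm_num⟩
  have sf : ContDiff ℝ ∞ f := f.contDiff
  obtain ⟨B, hB⟩ := (sf.continuous_deriv (by simp)).bounded_above_of_compact_support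
    f.hasCompactSupport.deriv
  refine ⟨4 * B ^ 2, fun s => ⟨fun t => f (t - s) ^ 2, by fun_prop, fun t => sq_nonneg _,
    fun t => pow_le_one₀ f.nonneg f.le_one, fun t => ?_, fun t h => ?_, fun t h => ?_⟩⟩
  · have := (((sf.differentiable (by simp) (t - s)).hasDerivAt.comp_sub_const t s).pow 2).deriv
    rw [show (fun t => f (t - s) ^ 2) = (fun t => f (t - s)) ^ 2 from rfl, this]
    have h := sq_le_sq' (neg_le_of_abs_le (hB (t - s))) (le_of_abs_le (hB (t - s)))
    simp only [Nat.cast_ofNat, Nat.add_one_sub_one, pow_one, mul_pow]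
    nlinarith [mul_le_mul_of_nonneg_left h (sq_nonneg (f (t - s)))]
  · have : t - s ∈ ball (0 : ℝ) f.rOut := f.support_eq ▸ fun k => h (by simp [k])
    simpa [Real.dist_eq] using this
  · filter_upwards [isOpen_Ioo.mem_nhds h] with r hr
    rw [f.one_of_mem_closedBall (by
      simpa [f, abs_le] using ⟨by linarith [hr.1], by linarith [hr.2]⟩), one_pow]

theorem ed_congr {X : M.Mf 4} {nc : ℕ} {b : Bg X.I X.M κ lam ν nc} {c c' : Sw.Cfg X.M κ ν}
    {x : X.M} (ha : ∀ i, c.a i =ᶠ[𝓝 x] c'.a i) (hΦ : c.Φ =ᶠ[𝓝 x] c'.Φ) : b.ed c x = b.ed c' x := by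
  simp only [Bg.ed, fc_congr ha, nab_congr' ha hΦ, hΦ.self_of_nhds]

variable {e : En3 κ lam ν} {c : e.ZC} {C : ℕ → ℝ} {A s : ℝ} {χ : ℝ → ℝ}

/-- the constant of the spinorial estimate -/
def kM (n A : ℝ) (C : ℕ → ℝ) : ℝ :=
  3 + 2 * (3 * A + 3 * C 0 ^ 2 + kS n (C 2) / 4 + 2 * C 0) ^ 2 * |C 0|

/-- the constant of the curvature estimate -/
def kF (K : ℝ) : ℝ := 128 * K ^ 2 + 96 * (K ^ 2 + K) ^ 2

theorem vol_le {K : ℝ} (hN : e.Nb K) : e.D.F.μ.real univ ≤ |K| :=
  ENNReal.toReal_le_of_le_ofReal (abs_nonneg K)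
    (hN.vol.trans (ENNReal.ofReal_le_ofReal (le_abs_self K)))

variable (he : e.OK) (hC : Bg.Bd (X := e.Z) e.cyl C) (hN : e.Nb (C 0)) (hc : e.cyl.Adm c)
  (hχ : Bump A s χ) (h : ∀ x ∈ univ ×ˢ ball s (3 / 4),
    e.cyl.eD c x = e.b (nm (sl c x.2)) • e.m.ρ none x.1 (c.Φ x) ∧ ‖e.cyl.eC c x‖ ≤ C 0)
include he hC hN hc hχ h

theorem spin_le : Integrable (vv e.cyl c fun x => χ x.2) e.D.Z.μ ∧
    ∫ x, vv e.cyl c (fun x => χ x.2) x ∂e.D.Z.μ ≤ 2 * kM (Fintype.card (Option κ)) A C := by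
  have s1 : Sm (IC e.Y.I) fun x : e.Y.M × ℝ => χ x.2 := sm_snd hχ.sm
  obtain ⟨i1, i2, i3⟩ := int_cut he.cyl hc s1 (.intro (isCompact_univ.prod
    (isCompact_closedBall s (3 / 4))) fun x hx => by_contra fun k =>
      hx ⟨trivial, ball_subset_closedBall (hχ.sup _ k)⟩)
  have d0 : ∀ x, e.cyl.F.D none (fun x => χ x.2) x = deriv χ x.2 :=
    congrFun (D_none_snd e.D.F.toPre hχ.sm)
  have d1 : ∀ k x, e.cyl.F.D (some k) (fun x => χ x.2) x = 0 := fun k =>
    congrFun (D_some_snd e.D.F.toPre hχ.sm k)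
  have M0 : 0 ≤ kM (Fintype.card (Option κ)) A C := by unfold kM; positivity
  refine ⟨i1, i3.trans_le ((integral_prod_symm _ i2).trans_le ((integral_mono_ae
    i2.integral_prod_right (g := (win s).indicator fun _ => kM (Fintype.card (Option κ)) A C)
    ((integrableOn_const (by simp)).integrable_indicator measurableSet_Ioo)
    (i2.prod_left_ae.mono fun t it => ?_)).trans_eq ?_))⟩
  · by_cases k : χ t = 0
    · have k' : deriv χ t = 0 := by simpa [k] using hχ.der t
      simp only [fun y => gg_zero he.cyl hc (s1 (y, t)) k fun i => by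
        cases i; exacts [(d0 _).trans k', d1 _ _], integral_zero]
      exact indicator_nonneg (fun _ _ => M0) t
    have m := hχ.sup t k
    have m' : t ∈ win s := by
      rw [Real.ball_eq_Ioo] at m; exact ⟨by linarith [m.1], by linarith [m.2]⟩
    have j : Integrable (fun y => ‖c.Φ (y, t)‖ ^ 2) e.D.F.μ :=
      integrable_Y ((sm_slice_fst hc.sΦ t).continuous.norm.pow 2)
    rw [indicator_of_mem m']
    refine (integral_mono it (((j.const_mul _).const_mul 3).add (integrable_Y continuous_const))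
      fun y => gg_le (β := e.b (nm (sl c t))) he.cyl hc (s1 (y, t)) (hχ.h0 t) (hχ.h1 t) (fun v => by
        simp [Fintype.sum_option, d0, d1]) (hχ.der t) (h (y, t) ⟨trivial, m⟩).1
        (h (y, t) ⟨trivial, m⟩).2 (hC.om _) (hC.ms _) (scal_le hC.tame _)).trans ?_
    simp only [Pi.add_apply]
    rw [integral_add ((j.const_mul _).const_mul 3) (integrable_Y continuous_const),
      integral_const_mul, integral_const_mul, integral_const, smul_eq_mul, mul_comm (Measure.real _ _)]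
    refine add_le_add (mul_le_of_le_one_right (by norm_num) ?_)
      (mul_le_mul_of_nonneg_left (vol_le hN) (by positivity))
    change e.w * e.b (nm (sl c t)) ^ 2 * nm (sl c t) ≤ 1
    rcases le_total (nm (sl c t)) 1 with l | l
    · exact mul_le_one₀ (hN.wb _) (nm_nonneg _) l
    · simp [he.b1 _ l]
  · rw [integral_indicator measurableSet_Ioo, setIntegral_const, Real.volume_real_Ioo_of_le
      (by linarith), smul_eq_mul]
    ring

theorem enw_core : ∫⁻ x in univ ×ˢ Ioo (s - 1 / 2) (s + 1 / 2),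
    ENNReal.ofReal (Bg.ed (X := e.Z) e.cyl c x) ∂e.D.Z.μ ≤ ENNReal.ofReal (kF (C 0) * |C 0|) +
      6 * en c (Ioo (s - 1 / 2) (s + 1 / 2)) +
        ENNReal.ofReal (144 * kM (Fintype.card (Option κ)) A C) := by
  obtain ⟨i1, i2⟩ := spin_le he hC hN hc hχ h
  have F0 : 0 ≤ kF (C 0) := by unfold kF; positivity
  let g : e.Y.M × ℝ → ℝ := fun x => 2 * ∑ k, (gr (sl c x.2)).a k x.1 * (gr (sl c x.2)).a k x.1 +
    e.w * ⟪(gr (sl c x.2)).Φ x.1, (gr (sl c x.2)).Φ x.1⟫_ℝ
  have g1 : ∀ x, 2 * ∑ k, (gr (sl c x.2)).a k x.1 ^ 2 ≤ g x := fun x => by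
    simp only [g, sq, le_add_iff_nonneg_right]
    exact mul_nonneg hN.w0.le real_inner_self_nonneg
  have g0 : ∀ x, 0 ≤ kF (C 0) + 6 * g x := fun x =>
    add_nonneg F0 (mul_nonneg (by norm_num) (le_trans (by positivity) (g1 x)))
  refine (setLIntegral_mono' (MeasurableSet.univ.prod measurableSet_Ioo) (g := fun x =>
    ENNReal.ofReal (kF (C 0) + 6 * g x) + ENNReal.ofReal (72 * vv e.cyl c (fun x => χ x.2) x))
    fun x hx => ?_).trans ?_
  · refine (ENNReal.ofReal_le_ofReal ?_).trans ENNReal.ofReal_add_le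
    have k := hχ.one _ hx.2
    have a1 := fc_le he hc hN hC.om x (h x ⟨trivial, by
      rw [Real.ball_eq_Ioo]; exact ⟨by linarith [hx.2.1], by linarith [hx.2.2]⟩⟩).2
    have a2 : ∀ i, nab (IC e.Y.I) e.cyl.F.e (e.cyl.W c) i (fun y => χ y.2 • c.Φ y) x =
        nab (IC e.Y.I) e.cyl.F.e (e.cyl.W c) i c.Φ x := fun i => nab_congr i
      ((continuous_snd.continuousAt.eventually k).mono fun y hy => by simp only [hy, one_smul])
    have a3 : 0 ≤ e.cyl.w * ∑ i, ‖nab (IC e.Y.I) e.cyl.F.e (e.cyl.W c) i c.Φ x‖ ^ 2 :=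
      mul_nonneg he.cyl.w (by positivity)
    simp only [vv, a2, k.self_of_nhds]
    change ‖e.cyl.fc c x‖ ^ 2 + e.cyl.w * ∑ i, ‖nab (IC e.Y.I) e.cyl.F.e (e.cyl.W c) i c.Φ x‖ ^ 2 +
      e.w ^ 2 * ‖c.Φ x‖ ^ 4 ≤ _ + 72 * (_ + e.w ^ 2 / 8 * _)
    unfold kF
    linarith [g1 x]
  rw [lintegral_add_right' _ (i1.const_mul 72).aemeasurable.ennreal_ofReal.restrict]
  refine add_le_add ?_ ((setLIntegral_le_lintegral _ _).trans ?_)
  · change ∫⁻ x in _, _ ∂(e.D.F.μ.prod volume) ≤ _
    rw [← Measure.prod_restrict, Measure.restrict_univ, ← lintegral_prod_swap]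
    refine (lintegral_prod_le _).trans ((lintegral_mono (g := fun t => ENNReal.ofReal
      (kF (C 0) * |C 0|) + 6 * ENNReal.ofReal (gn (sl c t))) fun t => ?_).trans ?_)
    · have hv : e.cyl.Adm (fz (sl c t)) := adm_sl isOpen_univ ⟨fun i => (hc.sa i).contMDiffOn,
        hc.sΦ.contMDiffOn, fun i x _ => hc.pa i x, fun x _ => hc.pΦ x⟩ (mem_univ t)
      have j : Integrable (fun y => g (y, t)) e.D.F.μ := integrable_Y ((continuous_const.mul
        (continuous_finsetSum _ fun k _ => (sm_gr_a he hv k).continuous.mul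
          (sm_gr_a he hv k).continuous)).add (continuous_const.mul
            ((sm_gr_Φ he hv).continuous.inner (sm_gr_Φ he hv).continuous)))
      simp only [Prod.swap_prod_mk]
      rw [← ofReal_integral_eq_lintegral_ofReal (f := fun y => kF (C 0) + 6 * g (y, t))
        ((integrable_Y continuous_const).add (j.const_mul 6)) (.of_forall fun y => g0 _), integral_add (integrable_Y continuous_const)
        (j.const_mul 6), integral_const_mul, integral_const, smul_eq_mul, mul_comm]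
      refine ENNReal.ofReal_add_le.trans (add_le_add (ENNReal.ofReal_le_ofReal
        (mul_le_mul_of_nonneg_left (vol_le hN) F0)) ?_)
      rw [ENNReal.ofReal_mul (by norm_num), ENNReal.ofReal_ofNat]
      rfl
    · rw [lintegral_add_left measurable_const, lintegral_const_mul' _ _ (by simp),
        setLIntegral_const, Real.volume_Ioo, show s + 1 / 2 - (s - 1 / 2) = 1 by ring,
        ENNReal.ofReal_one, mul_one]
      rfl
  · rw [← ofReal_integral_eq_lintegral_ofReal (i1.const_mul 72)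
      (.of_forall fun x => mul_nonneg (by norm_num) (vv_nonneg he.cyl)), integral_const_mul]
    exact ENNReal.ofReal_le_ofReal (by linarith)

omit he hC hN hc hχ h in
/-- **SW-ENW** -/
theorem enw : Sw.EnwStmt κ lam ν := by
  intro C
  obtain ⟨A, hA⟩ := exists_bump
  refine ⟨kF (C 0) * |C 0| + 6 + 144 * kM (Fintype.card (Option κ)) A C,
    fun e he hC hN c s hc h => ?_⟩
  obtain ⟨χ, hχ⟩ := hA s
  let k : ContDiffBump s := ⟨3 / 4, 4 / 5, by norm_num, by norm_num⟩
  have k1 : ∀ x ∈ (univ : Set e.Y.M) ×ˢ ball s (3 / 4), ∀ᶠ y in 𝓝 x, k y.2 = 1 := fun x hx =>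
    continuous_snd.continuousAt.eventually (k.eventuallyEq_one_of_mem_ball hx.2)
  have k2 : ∀ t ∈ ball s (3 / 4), sl (cut (fun x => k x.2) c) t = sl c t := fun t ht => by
    have : k t = 1 := k.one_of_mem_closedBall (ball_subset_closedBall ht)
    simp only [sl, cut, this, one_smul]
  have b1 : Ioo (s - 1 / 2) (s + 1 / 2) ⊆ ball s (3 / 4) := by
    rw [Real.ball_eq_Ioo]; exact Ioo_subset_Ioo (by linarith) (by linarith)
  have b2 : closedBall s (4 / 5) ⊆ win s := by
    rw [Real.closedBall_eq_Icc]; exact Icc_subset_Ioo (by linarith) (by linarith)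
  have b3 : ball s (3 / 4) ⊆ win s :=
    (ball_subset_closedBall.trans (closedBall_subset_closedBall (by norm_num))).trans b2
  have r := enw_core he hC hN (adm_cut (isOpen_univ.prod isOpen_Ioo) hc (φ := fun x => k x.2)
    (sm_snd k.contDiff) ((closure_minimal (t := univ ×ˢ closedBall s (4 / 5)) (fun x hx => ⟨trivial, ball_subset_closedBall
      (k.support_eq ▸ hx : x.2 ∈ ball s k.rOut)⟩) (isClosed_univ.prod isClosed_closedBall)).trans
      (prod_mono_right b2))) hχ fun x hx => by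
    rw [eD_congr (cut_a (k1 x hx)) (cut_Φ (k1 x hx)), eC_congr (cut_a (k1 x hx)) (cut_Φ (k1 x hx)),
      k2 _ hx.2, (cut_Φ (k1 x hx)).self_of_nhds]
    exact h x ⟨trivial, b3 hx.2⟩
  refine ((setLIntegral_congr_fun (MeasurableSet.univ.prod measurableSet_Ioo) fun x hx => ?_).le.trans
    r).trans ?_
  · have l := k1 x ⟨trivial, b1 hx.2⟩
    exact congrArg _ (ed_congr (X := e.Z) (cut_a l) (cut_Φ l)).symm
  have l : en (cut (fun x => k x.2) c) (Ioo (s - 1 / 2) (s + 1 / 2)) ≤ en c (win s) :=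
    (setLIntegral_congr_fun measurableSet_Ioo fun t ht => by simp only [k2 t (b1 ht)]).le.trans
      (lintegral_mono_set (b1.trans b3))
  have F0 : 0 ≤ kF (C 0) * |C 0| := by unfold kF; positivity
  have M0 : 0 ≤ 144 * kM (Fintype.card (Option κ)) A C := by unfold kM; positivity
  rw [ENNReal.ofReal_add (by linarith) M0, ENNReal.ofReal_add F0 (by norm_num), add_mul, add_mul,
    ENNReal.ofReal_ofNat]
  exact add_le_add (add_le_add (le_mul_of_one_le_right' le_self_add)
    (mul_le_mul_right (l.trans le_add_self) _)) (le_mul_of_one_le_right' le_self_add)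

end Crest.Agent.X212.Enw40
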